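import Vale.Agent.P046.Full.All

/-!
P046: the number of edges left by random triangle removal is asymptotic to `n^{3/2} / (2√2)`.
-/

namespace Vale.Agent.Results.P046.ExactConstant

open Filter Topology
open Vale.Agent.P046

theorem result :
    Tendsto (fun n : ℕ => expectFinal (fun e => (e : ℝ)) (complete n) /
        ((n : ℝ) * Real.sqrt n)) atTop (𝓝 (1 / (2 * Real.sqrt 2))) ∧
      ∀ ε : ℝ, 0 < ε → Tendsto (fun n : ℕ => expectFinal
        (fun e => if ε < |(e : ℝ) / ((n : ℝ) * Real.sqrt n) - 1 / (2 * Real.sqrt 2)| then 1 else 0)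
        (complete n)) atTop (𝓝 0) :=
  Vale.Agent.P046.Full.main

end Vale.Agent.Results.P046.ExactConstant
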